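import Mathlib

/-!
# Circulant Hadamard matrices: monochromatic progressions in the first row are short

The first row of a circulant Hadamard matrix of order `n` is a sign vector `h : ZMod n → ℤ`
all of whose periodic autocorrelations at nonzero shifts vanish.
-/

namespace Vale.Agent.Lib.P033

open Finset

/-- `h : ZMod n → ℤ` is the first row of a real circulant Hadamard matrix of order `n`:
its entries are `1` or `-1`, and the periodic autocorrelation
`P_h(t) = ∑ j, h j * h (j + t)` vanishes for every nonzero shift `t` (indices modulo `n`). -/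
def IsCirculantHadamardRow (n : ℕ) [NeZero n] (h : ZMod n → ℤ) : Prop :=
  (∀ j, h j = 1 ∨ h j = -1) ∧ ∀ t : ZMod n, t ≠ 0 → ∑ j, h j * h (j + t) = 0

variable {n : ℕ} [NeZero n] {h : ZMod n → ℤ}

theorem sq_eq_one (hh : IsCirculantHadamardRow n h) (j : ZMod n) : h j * h j = 1 := by
  rcases hh.1 j with e | e <;> rw [e] <;> norm_num

theorem autocorr (hh : IsCirculantHadamardRow n h) (t : ZMod n) :
    ∑ j, h j * h (j + t) = if t = 0 then (n : ℤ) else 0 := by
  split_ifs with ht
  · subst ht
    simp only [add_zero]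
    rw [Finset.sum_congr rfl (fun j _ => sq_eq_one hh j)]
    simp [ZMod.card]
  · exact hh.2 t ht

theorem autocorr_shift (hh : IsCirculantHadamardRow n h) (a b : ZMod n) :
    ∑ j, h (j - a) * h (j - b) = if a = b then (n : ℤ) else 0 := by
  have h1 : ∑ j, h (j - a) * h (j - b) = ∑ j, h j * h (j + (a - b)) := by
    refine Fintype.sum_equiv (Equiv.subRight a) _ _ ?_
    intro j
    simp only [Equiv.subRight_apply]
    congr 2
    ring
  rw [h1, autocorr hh]
  simp [sub_eq_zero]

/-- The key inequality: if `h` is constant along the progression `j0, j0 + d, …, j0 + (L-1) d`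
with distinct terms, then `(L - T + 1) * T ≤ n` for every `1 ≤ T ≤ L`. -/
theorem window_bound (hh : IsCirculantHadamardRow n h) (j0 d : ZMod n) (L : ℕ)
    (hinj : ∀ i k : ℕ, i < L → k < L → (i : ZMod n) * d = (k : ZMod n) * d → i = k)
    (hconst : ∀ i : ℕ, i < L → h (j0 + (i : ZMod n) * d) = h j0)
    (T : ℕ) (hT1 : 1 ≤ T) (hTL : T ≤ L) : (L - T + 1) * T ≤ n := by
  classical
  -- window sums
  let v : ZMod n → ℤ := fun j => ∑ t ∈ range T, h (j - (t : ZMod n) * d)
  -- second moment of the window sums
  have hsum : ∑ j, v j * v j = (T : ℤ) * n := by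
    have e1 : ∀ j, v j * v j =
        ∑ s ∈ range T, ∑ t ∈ range T, h (j - (s : ZMod n) * d) * h (j - (t : ZMod n) * d) := by
      intro j
      simp only [v]
      rw [Finset.sum_mul_sum]
    rw [Finset.sum_congr rfl (fun j _ => e1 j), Finset.sum_comm]
    have e2 : ∀ s ∈ range T, ∑ j, ∑ t ∈ range T,
        h (j - (s : ZMod n) * d) * h (j - (t : ZMod n) * d) = (n : ℤ) := by
      intro s hs
      rw [Finset.sum_comm]
      have e3 : ∀ t ∈ range T, ∑ j, h (j - (s : ZMod n) * d) * h (j - (t : ZMod n) * d) =
          if s = t then (n : ℤ) else 0 := by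
        intro t ht
        rw [autocorr_shift hh]
        have hs' : s < L := lt_of_lt_of_le (mem_range.mp hs) hTL
        have ht' : t < L := lt_of_lt_of_le (mem_range.mp ht) hTL
        by_cases hst : s = t
        · simp [hst]
        · have : ¬ ((s : ZMod n) * d = (t : ZMod n) * d) := fun e => hst (hinj s t hs' ht' e)
          simp [hst, this]
      rw [Finset.sum_congr rfl e3]
      simp [hs]
    rw [Finset.sum_congr rfl e2]
    simp
  -- the windows inside the progression
  let g : ℕ → ZMod n := fun i => j0 + (i : ZMod n) * d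
  have hg : ∀ i ∈ Ico (T - 1) L, v (g i) = (T : ℤ) * h j0 := by
    intro i hi
    obtain ⟨hi1, hi2⟩ := mem_Ico.mp hi
    simp only [v, g]
    have : ∀ t ∈ range T, h (j0 + (i : ZMod n) * d - (t : ZMod n) * d) = h j0 := by
      intro t ht
      have htT : t < T := mem_range.mp ht
      have hti : t ≤ i := by omega
      have e : j0 + (i : ZMod n) * d - (t : ZMod n) * d = j0 + ((i - t : ℕ) : ZMod n) * d := by
        rw [Nat.cast_sub hti]; ring
      rw [e]
      exact hconst (i - t) (by omega)
    rw [Finset.sum_congr rfl this]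
    simp
  have hginj : Set.InjOn g (Ico (T - 1) L : Finset ℕ) := by
    intro i hi k hk e
    have hi' := (mem_Ico.mp hi).2
    have hk' := (mem_Ico.mp hk).2
    simp only [g] at e
    exact hinj i k hi' hk' (add_left_cancel e)
  have hlow : ∑ i ∈ Ico (T - 1) L, v (g i) * v (g i) ≤ ∑ j, v j * v j := by
    rw [← Finset.sum_image (f := fun j => v j * v j) hginj]
    exact Finset.sum_le_sum_of_subset_of_nonneg (Finset.subset_univ _)
      (fun j _ _ => mul_self_nonneg (v j))
  have hval : ∑ i ∈ Ico (T - 1) L, v (g i) * v (g i) = ((L - T + 1 : ℕ) : ℤ) * ((T : ℤ) * T) := by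
    have : ∀ i ∈ Ico (T - 1) L, v (g i) * v (g i) = (T : ℤ) * T := by
      intro i hi
      rw [hg i hi]
      have := sq_eq_one hh j0
      calc (T : ℤ) * h j0 * ((T : ℤ) * h j0) = (T : ℤ) * T * (h j0 * h j0) := by ring
        _ = (T : ℤ) * T := by rw [this]; ring
    rw [Finset.sum_congr rfl this]
    simp only [Finset.sum_const, Nat.card_Ico, nsmul_eq_mul]
    congr 2
    omega
  rw [hval, hsum] at hlow
  have hlow' : (((L - T + 1) * T * T : ℕ) : ℤ) ≤ ((n * T : ℕ) : ℤ) := by
    push_cast
    push_cast at hlow
    nlinarith [hlow]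
  have hnat : (L - T + 1) * T * T ≤ n * T := by exact_mod_cast hlow'
  exact Nat.le_of_mul_le_mul_right hnat hT1

/-- A monochromatic progression with distinct terms in the first row of a circulant Hadamard
matrix of order `n` has length `L` with `L (L + 2) ≤ 4 n`, that is `L ≤ 2 √n - 1`. -/
theorem progression_bound (hh : IsCirculantHadamardRow n h) (j0 d : ZMod n) (L : ℕ)
    (hinj : ∀ i k : ℕ, i < L → k < L → (i : ZMod n) * d = (k : ZMod n) * d → i = k)
    (hconst : ∀ i : ℕ, i < L → h (j0 + (i : ZMod n) * d) = h j0) :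
    L * (L + 2) ≤ 4 * n := by
  rcases Nat.even_or_odd' L with ⟨m, rfl | rfl⟩
  · rcases Nat.eq_zero_or_pos m with rfl | hm
    · simp
    · have := window_bound hh j0 d (2 * m) hinj hconst m hm (by omega)
      have e : 2 * m - m + 1 = m + 1 := by omega
      rw [e] at this
      nlinarith [this]
  · have := window_bound hh j0 d (2 * m + 1) hinj hconst (m + 1) (by omega) (by omega)
    have e : 2 * m + 1 - (m + 1) + 1 = m + 1 := by omega
    rw [e] at this
    nlinarith [this]

end Vale.Agent.Lib.P033
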