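import Mathlib
import Vale.Agent.Lib.P033.Basic

/-!
# Circulant Hadamard matrices whose first row is invariant under a reflection

If the first row `h` of a circulant Hadamard matrix of order `n` satisfies `h (c - j) = h j` for
all `j` (for `c = 0` this says that the circulant matrix is symmetric), then `n = 1` or `n = 4`.

The proof counts, for each `g`, the pairs of entries `-1` at positions `j` and `g - j`.  For
`g ≠ c` this number is the same, and its parity is the number of entries `-1` at the fixed points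
of `j ↦ g - j`.  Hence `h s = h (s + n/2)` whenever `2 s ≠ c`, which contradicts the vanishing of
the autocorrelation at the shift `n/2` as soon as `n > 4`.
-/

namespace Vale.Agent.Lib.P033

open Finset

variable {n : ℕ} [NeZero n] {h : ZMod n → ℤ}

/-- The indicator of the entries equal to `-1`. -/
def negInd (h : ZMod n → ℤ) (j : ZMod n) : ℤ := if h j = -1 then 1 else 0

theorem h_eq_negInd (hh : IsCirculantHadamardRow n h) (j : ZMod n) :
    h j = 1 - 2 * negInd h j := by
  unfold negInd
  rcases hh.1 j with e | e <;> simp [e]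

/-- If `h` is invariant under `j ↦ c - j`, its convolution square vanishes off `c`. -/
theorem conv_of_reflect (hh : IsCirculantHadamardRow n h) (c : ZMod n)
    (hc : ∀ j, h (c - j) = h j) (g : ZMod n) (hg : g ≠ c) :
    ∑ j, h j * h (g - j) = 0 := by
  have e : ∀ j, h (g - j) = h (j + (c - g)) := by
    intro j
    rw [← hc (g - j)]
    congr 1
    ring
  simp only [e]
  exact hh.2 (c - g) (fun h0 => hg (sub_eq_zero.mp h0).symm)

/-- The convolution square of `h` in terms of the indicator of the entries `-1`. -/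
theorem conv_negInd (hh : IsCirculantHadamardRow n h) (g : ZMod n) :
    ∑ j, h j * h (g - j)
      = (n : ℤ) - 4 * ∑ j, negInd h j + 4 * ∑ j, negInd h j * negInd h (g - j) := by
  have e1 : ∀ j, h j * h (g - j)
      = 1 - 2 * negInd h j - 2 * negInd h (g - j) + 4 * (negInd h j * negInd h (g - j)) := by
    intro j
    rw [h_eq_negInd hh j, h_eq_negInd hh (g - j)]
    ring
  have e2 : ∑ j, negInd h (g - j) = ∑ j, negInd h j :=
    Equiv.sum_comp (Equiv.subLeft g) (negInd h)
  simp only [e1, Finset.sum_add_distrib, Finset.sum_sub_distrib, ← Finset.mul_sum, e2,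
    Finset.sum_const, Finset.card_univ, ZMod.card, nsmul_eq_mul, mul_one]
  ring

/-- The number of pairs of entries `-1` at positions `j`, `g - j` has the parity of the number
of entries `-1` at the fixed points of `j ↦ g - j`. -/
theorem conv_negInd_parity (h : ZMod n → ℤ) (g : ZMod n) :
    ((∑ j, negInd h j * negInd h (g - j) : ℤ) : ZMod 2)
      = ∑ j ∈ univ.filter (fun j : ZMod n => 2 * j = g), (negInd h j : ZMod 2) := by
  classical
  push_cast
  rw [← Finset.sum_filter_add_sum_filter_not univ (fun j : ZMod n => 2 * j = g)]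
  have hrest : ∑ j ∈ univ.filter (fun j : ZMod n => ¬ 2 * j = g),
      ((negInd h j : ZMod 2) * (negInd h (g - j) : ZMod 2)) = 0 := by
    refine Finset.sum_involution (fun j _ => g - j) ?_ ?_ ?_ ?_
    · intro j _
      rw [sub_sub_cancel, mul_comm]
      exact CharTwo.add_self_eq_zero _
    · intro j hj _ hfix
      apply (Finset.mem_filter.mp hj).2
      linear_combination -hfix
    · intro j hj
      rw [Finset.mem_filter] at hj ⊢
      refine ⟨mem_univ _, fun h2 => hj.2 ?_⟩
      linear_combination -h2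
    · intro j _
      ring
  rw [hrest, add_zero]
  refine Finset.sum_congr rfl ?_
  intro j hj
  have hj2 : 2 * j = g := (Finset.mem_filter.mp hj).2
  have e : g - j = j := by
    rw [← hj2]
    ring
  rw [e]
  unfold negInd
  split_ifs <;> simp

/-- In `ZMod (2 m)` the solutions of `2 x = 0` are `0` and `m`. -/
theorem two_torsion {m : ℕ} (hn : n = 2 * m) (x : ZMod n) (hx : 2 * x = 0) :
    x = 0 ∨ x = (m : ZMod n) := by
  have hx' : ((2 * x.val : ℕ) : ZMod n) = 0 := by
    push_cast
    rw [ZMod.natCast_zmod_val]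
    exact hx
  rw [ZMod.natCast_eq_zero_iff] at hx'
  have hlt : x.val < n := ZMod.val_lt x
  have hn0 : n ≠ 0 := NeZero.ne n
  have hm0 : 0 < m := by omega
  obtain ⟨k, hq⟩ := hx'
  have hk : x.val = m * k := by
    have h2 : 2 * x.val = 2 * (m * k) := by
      rw [hq, hn, mul_assoc]
    omega
  have hk2 : k < 2 := by
    by_contra hge
    have h3 : 2 ≤ k := by omega
    have h4 : m * 2 ≤ m * k := Nat.mul_le_mul_left m h3
    omega
  interval_cases k
  · left
    exact (ZMod.val_eq_zero x).mp (by simpa using hk)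
  · right
    have e : x.val = m := by simpa using hk
    rw [← e, ZMod.natCast_zmod_val]

omit [NeZero n] in
/-- For even `n`, an element whose image in `ZMod 2` is nonzero is not of the form `2 j`. -/
theorem two_mul_ne_of_odd (hd : 2 ∣ n) (g : ZMod n) (hg : ZMod.castHom hd (ZMod 2) g ≠ 0)
    (j : ZMod n) : 2 * j ≠ g := by
  intro e
  apply hg
  rw [← e, map_mul]
  have h2 : ZMod.castHom hd (ZMod 2) 2 = 0 := by
    rw [map_ofNat]
    decide
  rw [h2, zero_mul]

/-- The square of the row sum is the order. -/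
theorem rowsum_sq (hh : IsCirculantHadamardRow n h) : (∑ j, h j) * (∑ j, h j) = (n : ℤ) := by
  have e1 : ∑ t, ∑ j, h j * h (j + t) = (n : ℤ) := by
    simp only [autocorr hh]
    simp
  rw [Finset.sum_comm] at e1
  have e2 : ∀ j, ∑ t, h j * h (j + t) = h j * ∑ t, h t := by
    intro j
    rw [← Finset.mul_sum]
    congr 1
    exact Equiv.sum_comp (Equiv.addLeft j) h
  simp only [e2] at e1
  rw [← Finset.sum_mul] at e1
  exact e1

/-- A first row of a circulant Hadamard matrix that is invariant under a reflection `j ↦ c - j`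
exists only in the orders `1` and `4`. -/
theorem reflect_order (hh : IsCirculantHadamardRow n h) (c : ZMod n)
    (hc : ∀ j, h (c - j) = h j) : n = 1 ∨ n = 4 := by
  classical
  by_cases h1 : n = 1
  · exact Or.inl h1
  right
  have hn0 : n ≠ 0 := NeZero.ne n
  have one_ne : (1 : ZMod n) ≠ 0 := by
    intro e
    have e' : ((1 : ℕ) : ZMod n) = 0 := by simpa using e
    rw [ZMod.natCast_eq_zero_iff] at e'
    exact h1 (Nat.dvd_one.mp e')
  -- the order is even
  have heven : 2 ∣ n := by
    have hP := hh.2 1 one_ne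
    have hcast := congrArg (Int.cast : ℤ → ZMod 2) hP
    push_cast at hcast
    have hone : ∀ j, ((h j : ℤ) : ZMod 2) = 1 := by
      intro j
      rcases hh.1 j with e | e <;> rw [e] <;> simp
    simp only [hone, mul_one, Finset.sum_const, Finset.card_univ, ZMod.card, nsmul_eq_mul]
      at hcast
    exact (ZMod.natCast_eq_zero_iff n 2).mp hcast
  obtain ⟨m, hm⟩ := heven
  -- the order is not two
  have hm2 : 2 ≤ m := by
    by_contra hlt
    have hm1 : m = 1 := by omega
    have hS := rowsum_sq hh
    have hn2 : (n : ℤ) = 2 := by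
      rw [hm, hm1]
      norm_num
    rw [hn2] at hS
    have h3 : ∑ j, h j < 2 := by nlinarith
    have h4 : -2 < ∑ j, h j := by nlinarith
    have h5 : ∑ j, h j = -1 ∨ ∑ j, h j = 0 ∨ ∑ j, h j = 1 := by omega
    rcases h5 with e | e | e <;> rw [e] at hS <;> norm_num at hS
  have hτ0 : (m : ZMod n) ≠ 0 := by
    intro e
    rw [ZMod.natCast_eq_zero_iff] at e
    have h3 := Nat.le_of_dvd (by omega) e
    omega
  have h2τ : 2 * (m : ZMod n) = 0 := by
    have e : ((2 * m : ℕ) : ZMod n) = 0 := by
      rw [← hm]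
      exact ZMod.natCast_self n
    push_cast at e
    exact e
  -- the number of pairs of entries `-1` at positions `j`, `g - j` does not depend on `g ≠ c`
  have hR : ∀ g, g ≠ c →
      4 * ∑ j, negInd h j * negInd h (g - j) = 4 * ∑ j, negInd h j - (n : ℤ) := by
    intro g hg
    have e1 := conv_negInd hh g
    rw [conv_of_reflect hh c hc g hg] at e1
    linarith
  -- an odd `g1 ≠ c`
  have hd : 2 ∣ n := ⟨m, hm⟩
  obtain ⟨g1, hg1c, hg1odd⟩ : ∃ g1 : ZMod n, g1 ≠ c ∧ ∀ j : ZMod n, 2 * j ≠ g1 := by
    by_cases hc1 : c = 1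
    · refine ⟨-1, ?_, fun j => two_mul_ne_of_odd hd (-1) ?_ j⟩
      · rw [hc1]
        intro e
        have e2 : (2 : ZMod n) = 0 := by linear_combination (-1 : ZMod n) * e
        have e3 : ((2 : ℕ) : ZMod n) = 0 := by exact_mod_cast e2
        rw [ZMod.natCast_eq_zero_iff] at e3
        have h3 := Nat.le_of_dvd (by norm_num) e3
        omega
      · rw [map_neg, map_one]
        decide
    · refine ⟨1, fun e => hc1 e.symm, fun j => two_mul_ne_of_odd hd 1 ?_ j⟩
      rw [map_one]
      decide
  have hpar1 : ((∑ j, negInd h j * negInd h (g1 - j) : ℤ) : ZMod 2) = 0 := by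
    rw [conv_negInd_parity h g1]
    apply Finset.sum_eq_zero
    intro j hj
    exact absurd (Finset.mem_filter.mp hj).2 (hg1odd j)
  -- `h s = h (s + n/2)` unless `2 s = c`
  have hkey : ∀ s : ZMod n, 2 * s ≠ c → h s = h (s + (m : ZMod n)) := by
    intro s hs
    have e1 := hR (2 * s) hs
    have e2 := hR g1 hg1c
    have e3 : ∑ j, negInd h j * negInd h (2 * s - j) = ∑ j, negInd h j * negInd h (g1 - j) := by
      linarith
    have e4 : ((∑ j, negInd h j * negInd h (2 * s - j) : ℤ) : ZMod 2) = 0 := by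
      rw [e3]
      exact hpar1
    rw [conv_negInd_parity h (2 * s)] at e4
    have hfilt : univ.filter (fun j : ZMod n => 2 * j = 2 * s) = {s, s + (m : ZMod n)} := by
      ext j
      simp only [Finset.mem_filter, Finset.mem_univ, true_and, Finset.mem_insert,
        Finset.mem_singleton]
      constructor
      · intro hj
        have h0 : 2 * (j - s) = 0 := by linear_combination hj
        rcases two_torsion hm (j - s) h0 with e | e
        · left
          exact sub_eq_zero.mp e
        · right
          rw [← e]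
          ring
      · rintro (rfl | rfl)
        · rfl
        · linear_combination h2τ
    have hne : s ≠ s + (m : ZMod n) := by
      intro e
      apply hτ0
      linear_combination -e
    rw [hfilt, Finset.sum_pair hne] at e4
    have e5 : negInd h s = negInd h (s + (m : ZMod n)) := by
      unfold negInd at e4 ⊢
      by_cases a : h s = -1 <;> by_cases b : h (s + (m : ZMod n)) = -1
      · rw [if_pos a, if_pos b]
      · rw [if_pos a, if_neg b] at e4
        simp at e4
      · rw [if_neg a, if_pos b] at e4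
        simp at e4
      · rw [if_neg a, if_neg b]
    rw [h_eq_negInd hh s, h_eq_negInd hh (s + (m : ZMod n)), e5]
  -- the autocorrelation at the shift `n/2`
  have hP := hh.2 (m : ZMod n) hτ0
  have hsum : ∑ s, (1 - h s * h (s + (m : ZMod n))) = (n : ℤ) := by
    rw [Finset.sum_sub_distrib, hP]
    simp [ZMod.card]
  have hzero : ∀ s ∈ (univ : Finset (ZMod n)),
      s ∉ univ.filter (fun s : ZMod n => 2 * s = c) → 1 - h s * h (s + (m : ZMod n)) = 0 := by
    intro s _ hs
    have hs' : 2 * s ≠ c := fun e => hs (Finset.mem_filter.mpr ⟨mem_univ _, e⟩)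
    rw [← hkey s hs', sq_eq_one hh s]
    norm_num
  have hle : ∀ s ∈ univ.filter (fun s : ZMod n => 2 * s = c),
      1 - h s * h (s + (m : ZMod n)) ≤ 2 := by
    intro s _
    rcases hh.1 s with e | e <;> rcases hh.1 (s + (m : ZMod n)) with e' | e' <;>
      rw [e, e'] <;> norm_num
  have hFcard : (univ.filter (fun s : ZMod n => 2 * s = c)).card ≤ 2 := by
    by_cases hFe : univ.filter (fun s : ZMod n => 2 * s = c) = ∅
    · rw [hFe]
      simp
    · obtain ⟨s0, hs0⟩ := Finset.nonempty_iff_ne_empty.mpr hFe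
      have hs0' : 2 * s0 = c := (Finset.mem_filter.mp hs0).2
      have hsub : univ.filter (fun s : ZMod n => 2 * s = c) ⊆ {s0, s0 + (m : ZMod n)} := by
        intro s hs
        have hs' : 2 * s = c := (Finset.mem_filter.mp hs).2
        have h0 : 2 * (s - s0) = 0 := by linear_combination hs' - hs0'
        rcases two_torsion hm (s - s0) h0 with e | e
        · simp [sub_eq_zero.mp e]
        · have e' : s = s0 + (m : ZMod n) := by
            rw [← e]
            ring
          simp [e']
      exact le_trans (Finset.card_le_card hsub) Finset.card_le_two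
  have h4 : (n : ℤ) ≤ 4 := by
    rw [← hsum, ← Finset.sum_subset (Finset.subset_univ _) hzero]
    calc ∑ s ∈ univ.filter (fun s : ZMod n => 2 * s = c), (1 - h s * h (s + (m : ZMod n)))
        ≤ ∑ s ∈ univ.filter (fun s : ZMod n => 2 * s = c), (2 : ℤ) := Finset.sum_le_sum hle
      _ = 2 * ((univ.filter (fun s : ZMod n => 2 * s = c)).card : ℤ) := by
          rw [Finset.sum_const, nsmul_eq_mul, mul_comm]
      _ ≤ 4 := by
          have h5 : ((univ.filter (fun s : ZMod n => 2 * s = c)).card : ℤ) ≤ 2 := by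
            exact_mod_cast hFcard
          linarith
  have h6 : n ≤ 4 := by exact_mod_cast h4
  omega

/-- For `n ≠ 1` the order is even and at least four. -/
theorem order_even (hh : IsCirculantHadamardRow n h) (h1 : n ≠ 1) : ∃ m, n = 2 * m ∧ 2 ≤ m := by
  have hn0 : n ≠ 0 := NeZero.ne n
  have one_ne : (1 : ZMod n) ≠ 0 := by
    intro e
    have e' : ((1 : ℕ) : ZMod n) = 0 := by simpa using e
    rw [ZMod.natCast_eq_zero_iff] at e'
    exact h1 (Nat.dvd_one.mp e')
  have heven : 2 ∣ n := by
    have hP := hh.2 1 one_ne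
    have hcast := congrArg (Int.cast : ℤ → ZMod 2) hP
    push_cast at hcast
    have hone : ∀ j, ((h j : ℤ) : ZMod 2) = 1 := by
      intro j
      rcases hh.1 j with e | e <;> rw [e] <;> simp
    simp only [hone, mul_one, Finset.sum_const, Finset.card_univ, ZMod.card, nsmul_eq_mul]
      at hcast
    exact (ZMod.natCast_eq_zero_iff n 2).mp hcast
  obtain ⟨m, hm⟩ := heven
  refine ⟨m, hm, ?_⟩
  by_contra hlt
  have hm1 : m = 1 := by omega
  have hS := rowsum_sq hh
  have hn2 : (n : ℤ) = 2 := by
    rw [hm, hm1]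
    norm_num
  rw [hn2] at hS
  have h3 : ∑ j, h j < 2 := by nlinarith
  have h4 : -2 < ∑ j, h j := by nlinarith
  have h5 : ∑ j, h j = -1 ∨ ∑ j, h j = 0 ∨ ∑ j, h j = 1 := by omega
  rcases h5 with e | e | e <;> rw [e] at hS <;> norm_num at hS

theorem half_ne_zero {m : ℕ} (hm : n = 2 * m) : (m : ZMod n) ≠ 0 := by
  have hn0 : n ≠ 0 := NeZero.ne n
  intro e
  rw [ZMod.natCast_eq_zero_iff] at e
  have h3 := Nat.le_of_dvd (by omega) e
  omega

omit [NeZero n] in
theorem two_mul_half {m : ℕ} (hm : n = 2 * m) : 2 * (m : ZMod n) = 0 := by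
  have e : ((2 * m : ℕ) : ZMod n) = 0 := by
    rw [← hm]
    exact ZMod.natCast_self n
  push_cast at e
  exact e

/-- The fixed points of `j ↦ 2 s - j` are `s` and `s + n/2`. -/
theorem filter_double {m : ℕ} (hm : n = 2 * m) (s : ZMod n) :
    univ.filter (fun j : ZMod n => 2 * j = 2 * s) = {s, s + (m : ZMod n)} := by
  ext j
  simp only [Finset.mem_filter, Finset.mem_univ, true_and, Finset.mem_insert,
    Finset.mem_singleton]
  constructor
  · intro hj
    have h0 : 2 * (j - s) = 0 := by linear_combination hj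
    rcases two_torsion hm (j - s) h0 with e | e
    · left
      exact sub_eq_zero.mp e
    · right
      rw [← e]
      ring
  · rintro (rfl | rfl)
    · rfl
    · linear_combination two_mul_half hm

theorem ne_add_half {m : ℕ} (hm : n = 2 * m) (s : ZMod n) : s ≠ s + (m : ZMod n) := by
  intro e
  apply half_ne_zero hm
  linear_combination -e

/-- The sign `(-1)^y` of `y : ZMod 2`. -/
def sgn2 (y : ZMod 2) : ℤ := if y = 0 then 1 else -1

theorem sgn2_add (a b : ZMod 2) : sgn2 (a + b) = sgn2 a * sgn2 b := by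
  revert a b
  decide

theorem sgn2_negInd (hh : IsCirculantHadamardRow n h) (j : ZMod n) :
    sgn2 ((negInd h j : ℤ) : ZMod 2) = h j := by
  unfold negInd sgn2
  rcases hh.1 j with e | e
  · rw [e]
    norm_num
  · rw [e]
    norm_num

/-- The parity of the number of pairs of entries `-1` at positions `j`, `g - j`. -/
def pairPar (h : ZMod n → ℤ) (g : ZMod n) : ZMod 2 :=
  ((∑ j, negInd h j * negInd h (g - j) : ℤ) : ZMod 2)

theorem sgn2_pairPar_double (hh : IsCirculantHadamardRow n h) {m : ℕ} (hm : n = 2 * m)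
    (s : ZMod n) : sgn2 (pairPar h (2 * s)) = h s * h (s + (m : ZMod n)) := by
  unfold pairPar
  rw [conv_negInd_parity h (2 * s), filter_double hm s, Finset.sum_pair (ne_add_half hm s),
    sgn2_add, sgn2_negInd hh, sgn2_negInd hh]

theorem sgn2_pairPar_odd (h : ZMod n → ℤ) (g : ZMod n) (hg : ∀ j : ZMod n, 2 * j ≠ g) :
    sgn2 (pairPar h g) = 1 := by
  unfold pairPar
  rw [conv_negInd_parity h g]
  have e : ∑ j ∈ univ.filter (fun j : ZMod n => 2 * j = g), ((negInd h j : ℤ) : ZMod 2) = 0 := by
    apply Finset.sum_eq_zero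
    intro j hj
    exact absurd (Finset.mem_filter.mp hj).2 (hg j)
  rw [e]
  rfl

/-- Summing over the doubles `2 s` counts every even element twice. -/
theorem sum_double {m : ℕ} (hm : n = 2 * m) (f : ZMod n → ℤ) :
    ∑ s, f (2 * s) = 2 * ∑ g ∈ univ.filter (fun g : ZMod n => ∃ s, 2 * s = g), f g := by
  classical
  rw [← Finset.sum_fiberwise (univ : Finset (ZMod n)) (fun s : ZMod n => 2 * s)
    (fun s => f (2 * s))]
  rw [Finset.mul_sum, Finset.sum_filter]
  refine Finset.sum_congr rfl ?_
  intro g _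
  split_ifs with hg
  · obtain ⟨s0, hs0⟩ := hg
    have e1 : univ.filter (fun s : ZMod n => 2 * s = g) = {s0, s0 + (m : ZMod n)} := by
      rw [← hs0]
      exact filter_double hm s0
    rw [e1, Finset.sum_pair (ne_add_half hm s0)]
    have e2 : 2 * (s0 + (m : ZMod n)) = g := by
      rw [← hs0]
      linear_combination two_mul_half hm
    rw [e2, hs0]
    ring
  · apply Finset.sum_eq_zero
    intro s hs
    exact absurd ⟨s, (Finset.mem_filter.mp hs).2⟩ hg

/-- The signs of the pair parities sum to `n/2`. -/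
theorem sum_sgn2_pairPar (hh : IsCirculantHadamardRow n h) {m : ℕ} (hm : n = 2 * m) :
    ∑ g, sgn2 (pairPar h g) = (m : ℤ) := by
  classical
  have hP := hh.2 (m : ZMod n) (half_ne_zero hm)
  have e1 := sum_double hm (fun g => sgn2 (pairPar h g))
  simp only [sgn2_pairPar_double hh hm] at e1
  rw [hP] at e1
  have e2 := sum_double hm (fun _ => (1 : ℤ))
  simp only [Finset.sum_const, Finset.card_univ, ZMod.card, nsmul_eq_mul, mul_one] at e2
  rw [← Finset.sum_filter_add_sum_filter_not univ (fun g : ZMod n => ∃ s, 2 * s = g)]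
  have e3 : ∑ g ∈ univ.filter (fun g : ZMod n => ¬ ∃ s, 2 * s = g), sgn2 (pairPar h g)
      = ((univ.filter (fun g : ZMod n => ¬ ∃ s, 2 * s = g)).card : ℤ) := by
    rw [Finset.card_eq_sum_ones]
    push_cast
    refine Finset.sum_congr rfl ?_
    intro g hg
    exact sgn2_pairPar_odd h g (fun j e => (Finset.mem_filter.mp hg).2 ⟨j, e⟩)
  have e4 : (univ.filter (fun g : ZMod n => ∃ s, 2 * s = g)).card
      + (univ.filter (fun g : ZMod n => ¬ ∃ s, 2 * s = g)).card = n := by
    rw [Finset.card_filter_add_card_filter_not, Finset.card_univ, ZMod.card]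
  have e5 : ((univ.filter (fun g : ZMod n => ∃ s, 2 * s = g)).card : ℤ)
      + ((univ.filter (fun g : ZMod n => ¬ ∃ s, 2 * s = g)).card : ℤ) = (n : ℤ) := by
    exact_mod_cast e4
  have e6 : (n : ℤ) = 2 * (m : ℤ) := by
    rw [hm]
    push_cast
    ring
  rw [e3]
  linarith

/-- The convolution square when `h` is invariant under `j ↦ c - j` except at the two positions
`e` and `c - e`, where the sign flips. -/
theorem conv_defect (c e : ZMod n) (hne : e ≠ c - e) (hflip : h (c - e) = - h e)
    (hc : ∀ j, j ≠ e → j ≠ c - e → h (c - j) = h j) (g : ZMod n) :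
    ∑ j, h j * h (g - j)
      = ∑ j, h j * h (j + (c - g)) + 2 * h e * h (g - e)
        + 2 * h (c - e) * h (g - (c - e)) := by
  classical
  have e1 : ∀ j, h j * h (g - j)
      = h j * h (j + (c - g)) + h j * (h (g - j) - h (c - (g - j))) := by
    intro j
    have e0 : c - (g - j) = j + (c - g) := by ring
    rw [e0]
    ring
  rw [Finset.sum_congr rfl (fun j _ => e1 j), Finset.sum_add_distrib]
  have e2 : ∑ j, h j * (h (g - j) - h (c - (g - j)))
      = ∑ x, h (g - x) * (h x - h (c - x)) := by
    refine Fintype.sum_equiv (Equiv.subLeft g) _ _ ?_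
    intro j
    simp only [Equiv.subLeft_apply]
    rw [sub_sub_cancel]
  rw [e2]
  have e3 : ∑ x, h (g - x) * (h x - h (c - x))
      = ∑ x ∈ ({e, c - e} : Finset (ZMod n)), h (g - x) * (h x - h (c - x)) := by
    symm
    apply Finset.sum_subset (Finset.subset_univ _)
    intro x _ hx
    have hx1 : x ≠ e := fun e0 => hx (by simp [e0])
    have hx2 : x ≠ c - e := fun e0 => hx (by simp [e0])
    rw [hc x hx1 hx2]
    ring
  rw [e3, Finset.sum_pair hne]
  have e4 : c - (c - e) = e := by ring
  rw [e4, hflip]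
  ring

theorem cast_h (hh : IsCirculantHadamardRow n h) (j : ZMod n) : ((h j : ℤ) : ZMod 2) = 1 := by
  rcases hh.1 j with e | e <;> rw [e] <;> simp

theorem pairPar_defect (hh : IsCirculantHadamardRow n h) (c e : ZMod n) (hne : e ≠ c - e)
    (hflip : h (c - e) = - h e) (hc : ∀ j, j ≠ e → j ≠ c - e → h (c - j) = h j)
    (g : ZMod n) (hg : g ≠ c) :
    4 * ∑ j, negInd h j * negInd h (g - j)
        + 4 * (h e * (negInd h (g - e) - negInd h (g - (c - e))))
      = 4 * ∑ j, negInd h j - (n : ℤ) := by
  have e1 := conv_negInd hh g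
  rw [conv_defect c e hne hflip hc g, hh.2 (c - g) (fun h0 => hg (sub_eq_zero.mp h0).symm), hflip,
    h_eq_negInd hh (g - e), h_eq_negInd hh (g - (c - e))] at e1
  linear_combination (-1 : ℤ) * e1

theorem zmod2_aux : ∀ p q a b a1 b1 : ZMod 2,
    p + (a - b) = q + (a1 - b1) → p + a + b = q + a1 + b1 := by decide

theorem pairPar_rel (hh : IsCirculantHadamardRow n h) (c e : ZMod n) (hne : e ≠ c - e)
    (hflip : h (c - e) = - h e) (hc : ∀ j, j ≠ e → j ≠ c - e → h (c - j) = h j)
    (g g1 : ZMod n) (hg : g ≠ c) (hg1 : g1 ≠ c) :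
    sgn2 (pairPar h g) * (h (g - e) * h (g - (c - e)))
      = sgn2 (pairPar h g1) * (h (g1 - e) * h (g1 - (c - e))) := by
  have e1 := pairPar_defect hh c e hne hflip hc g hg
  have e2 := pairPar_defect hh c e hne hflip hc g1 hg1
  have e3 : ∑ j, negInd h j * negInd h (g - j)
        + h e * (negInd h (g - e) - negInd h (g - (c - e)))
      = ∑ j, negInd h j * negInd h (g1 - j)
        + h e * (negInd h (g1 - e) - negInd h (g1 - (c - e))) := by
    linarith
  have e4 : pairPar h g + ((negInd h (g - e) : ℤ) : ZMod 2)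
        + ((negInd h (g - (c - e)) : ℤ) : ZMod 2)
      = pairPar h g1 + ((negInd h (g1 - e) : ℤ) : ZMod 2)
        + ((negInd h (g1 - (c - e)) : ℤ) : ZMod 2) := by
    have e4 := congrArg (Int.cast : ℤ → ZMod 2) e3
    simp only [Int.cast_add, Int.cast_mul, Int.cast_sub, cast_h hh e, one_mul] at e4
    exact zmod2_aux _ _ _ _ _ _ e4
  have e6 := congrArg sgn2 e4
  simp only [sgn2_add, sgn2_negInd hh] at e6
  linear_combination e6

theorem sgn2_le (y : ZMod 2) : sgn2 y ≤ 1 := by
  unfold sgn2
  split_ifs <;> norm_num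

theorem sgn2_cases (y : ZMod 2) : sgn2 y = 1 ∨ sgn2 y = -1 := by
  unfold sgn2
  split_ifs
  · exact Or.inl rfl
  · exact Or.inr rfl

/-- If `h` is invariant under `j ↦ c - j` except at exactly two positions, then `n ≤ 4`. -/
theorem defect_two_order (hh : IsCirculantHadamardRow n h) (c e : ZMod n) (hne : e ≠ c - e)
    (hflip : h (c - e) = - h e) (hc : ∀ j, j ≠ e → j ≠ c - e → h (c - j) = h j) : n ≤ 4 := by
  classical
  by_cases h1 : n = 1
  · omega
  obtain ⟨m, hm, -⟩ := order_even hh h1
  have one_ne : (1 : ZMod n) ≠ 0 := by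
    intro e0
    have e' : ((1 : ℕ) : ZMod n) = 0 := by simpa using e0
    rw [ZMod.natCast_eq_zero_iff] at e'
    exact h1 (Nat.dvd_one.mp e')
  have hg1 : c + 1 ≠ c := by
    intro e0
    apply one_ne
    linear_combination e0
  obtain ⟨ρ, hρ⟩ : ∃ ρ : ℤ,
      ρ = sgn2 (pairPar h (c + 1)) * (h (c + 1 - e) * h (c + 1 - (c - e))) := ⟨_, rfl⟩
  have hρle : ρ ≤ 1 := by
    rw [hρ]
    rcases sgn2_cases (pairPar h (c + 1)) with e1 | e1 <;>
      rcases hh.1 (c + 1 - e) with e2 | e2 <;>
      rcases hh.1 (c + 1 - (c - e)) with e3 | e3 <;>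
      rw [e1, e2, e3] <;> norm_num
  have hsgn : ∀ g, g ≠ c → sgn2 (pairPar h g) - ρ * (h (g - e) * h (g - (c - e))) = 0 := by
    intro g hg
    have e1 := pairPar_rel hh c e hne hflip hc g (c + 1) hg hg1
    have e2 := sq_eq_one hh (g - e)
    have e3 := sq_eq_one hh (g - (c - e))
    rw [hρ, ← e1]
    linear_combination (-(sgn2 (pairPar h g))) * e2
      - (sgn2 (pairPar h g)) * (h (g - e) * h (g - e)) * e3
  have hsum : ∑ g, (sgn2 (pairPar h g) - ρ * (h (g - e) * h (g - (c - e)))) = (m : ℤ) := by
    rw [Finset.sum_sub_distrib, ← Finset.mul_sum, sum_sgn2_pairPar hh hm,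
      autocorr_shift hh e (c - e), if_neg hne]
    ring
  rw [Finset.sum_eq_single c (fun g _ hg => hsgn g hg) (fun hc' => absurd (mem_univ c) hc')]
    at hsum
  have e4 : c - (c - e) = e := by ring
  rw [e4, hflip] at hsum
  have e5 := sq_eq_one hh e
  have e6 : sgn2 (pairPar h c) + ρ = (m : ℤ) := by linear_combination hsum - ρ * e5
  have e7 := sgn2_le (pairPar h c)
  have e8 : (m : ℤ) ≤ 2 := by linarith
  have e9 : m ≤ 2 := by exact_mod_cast e8
  omega

/-- In a first row of a circulant Hadamard matrix of order `n > 4`, every reflection `j ↦ c - j`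
changes the sign at four positions at least. -/
theorem reflect_defect (hh : IsCirculantHadamardRow n h) (hn : 4 < n) (c : ZMod n) :
    4 ≤ (univ.filter (fun j : ZMod n => h (c - j) ≠ h j)).card := by
  classical
  have hmem : ∀ j, j ∈ univ.filter (fun j : ZMod n => h (c - j) ≠ h j) ↔ h (c - j) ≠ h j := by
    intro j
    simp
  generalize univ.filter (fun j : ZMod n => h (c - j) ≠ h j) = E at hmem ⊢
  have hEeven : ((E.card : ℕ) : ZMod 2) = 0 := by
    rw [Finset.card_eq_sum_ones]
    push_cast
    refine Finset.sum_involution (fun j _ => c - j) ?_ ?_ ?_ ?_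
    · intro j _
      exact CharTwo.add_self_eq_zero _
    · intro j hj _ hfix
      apply (hmem j).mp hj
      rw [hfix]
    · intro j hj
      rw [hmem] at hj ⊢
      rw [sub_sub_cancel]
      exact fun e0 => hj e0.symm
    · intro j _
      exact sub_sub_cancel c j
  have h2 : 2 ∣ E.card := (ZMod.natCast_eq_zero_iff _ 2).mp hEeven
  have h0 : E.card ≠ 0 := by
    intro e0
    have hEe : E = ∅ := Finset.card_eq_zero.mp e0
    have hall : ∀ j, h (c - j) = h j := by
      intro j
      by_contra hj
      have hjE : j ∈ E := (hmem j).mpr hj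
      rw [hEe] at hjE
      simp at hjE
    rcases reflect_order hh c hall with e1 | e1 <;> omega
  have h2' : E.card ≠ 2 := by
    intro e0
    obtain ⟨a, b, hab, hEab⟩ := Finset.card_eq_two.mp e0
    have ha : a ∈ E := by
      rw [hEab]
      simp
    have ha' : h (c - a) ≠ h a := (hmem a).mp ha
    have hca : c - a ∈ E := by
      rw [hmem, sub_sub_cancel]
      exact fun e1 => ha' e1.symm
    have hne : a ≠ c - a := by
      intro e1
      apply ha'
      rw [← e1]
    have hflip : h (c - a) = - h a := by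
      rcases hh.1 a with e1 | e1 <;> rcases hh.1 (c - a) with e2 | e2
      · exact absurd (e2.trans e1.symm) ha'
      · rw [e1, e2]
      · rw [e1, e2]
        norm_num
      · exact absurd (e2.trans e1.symm) ha'
    have hb : b = c - a := by
      rw [hEab] at hca
      simp only [Finset.mem_insert, Finset.mem_singleton] at hca
      rcases hca with e1 | e1
      · exact absurd e1.symm hne
      · exact e1.symm
    have hcj : ∀ j, j ≠ a → j ≠ c - a → h (c - j) = h j := by
      intro j hj1 hj2
      by_contra hj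
      have hjE : j ∈ E := (hmem j).mpr hj
      rw [hEab, hb] at hjE
      simp only [Finset.mem_insert, Finset.mem_singleton] at hjE
      rcases hjE with e1 | e1
      · exact hj1 e1
      · exact hj2 e1
    have h4 := defect_two_order hh c a hne hflip hcj
    omega
  omega

/-- The sign `(-1)^j` on `ZMod n` for even `n`. -/
def altSign (hd : 2 ∣ n) (j : ZMod n) : ℤ := sgn2 (ZMod.castHom hd (ZMod 2) j)

omit [NeZero n] in
theorem altSign_add (hd : 2 ∣ n) (j t : ZMod n) :
    altSign hd (j + t) = altSign hd j * altSign hd t := by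
  unfold altSign
  rw [map_add, sgn2_add]

omit [NeZero n] in
theorem altSign_sq (hd : 2 ∣ n) (j : ZMod n) : altSign hd j * altSign hd j = 1 := by
  unfold altSign
  rcases sgn2_cases (ZMod.castHom hd (ZMod 2) j) with e | e <;> rw [e] <;> norm_num

omit [NeZero n] in
theorem altSign_zero (hd : 2 ∣ n) : altSign hd 0 = 1 := by
  unfold altSign
  rw [map_zero]
  rfl

omit [NeZero n] in
theorem altSign_sub (hd : 2 ∣ n) (c j : ZMod n) :
    altSign hd (c - j) = altSign hd c * altSign hd j := by
  have e := altSign_add hd (c - j) j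
  rw [sub_add_cancel] at e
  have e2 := altSign_sq hd j
  linear_combination (-(altSign hd (c - j))) * e2 - (altSign hd j) * e

theorem altSign_of_odd (hd : 2 ∣ n) (c : ZMod n) (hc : Odd c.val) : altSign hd c = -1 := by
  unfold altSign
  rw [ZMod.castHom_apply, ← ZMod.natCast_val, ZMod.natCast_eq_one_iff_odd.mpr hc]
  rfl

/-- The square of the alternating row sum is the order. -/
theorem altsum_sq (hh : IsCirculantHadamardRow n h) (hd : 2 ∣ n) :
    (∑ j, altSign hd j * h j) * (∑ j, altSign hd j * h j) = (n : ℤ) := by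
  have e2 : ∀ j, ∑ t, altSign hd t * (h j * h (j + t))
      = altSign hd j * h j * ∑ k, altSign hd k * h k := by
    intro j
    rw [Finset.mul_sum, ← Equiv.sum_comp (Equiv.addLeft j)
      (fun k => altSign hd j * h j * (altSign hd k * h k))]
    refine Finset.sum_congr rfl ?_
    intro t _
    simp only [Equiv.coe_addLeft]
    rw [altSign_add]
    linear_combination (-(altSign hd t * h j * h (j + t))) * altSign_sq hd j
  have e1 : ∑ t, ∑ j, altSign hd t * (h j * h (j + t)) = (n : ℤ) := by
    simp only [← Finset.mul_sum, autocorr hh]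
    simp [altSign_zero]
  rw [Finset.sum_comm] at e1
  simp only [e2] at e1
  rw [← Finset.sum_mul] at e1
  exact e1

/-- A reflection `j ↦ c - j` with `c` odd changes the sign at `√n` positions at least. -/
theorem reflect_defect_odd (hh : IsCirculantHadamardRow n h) (hd : 2 ∣ n) (c : ZMod n)
    (hc : altSign hd c = -1) :
    n ≤ (univ.filter (fun j : ZMod n => h (c - j) ≠ h j)).card ^ 2 := by
  classical
  have hmem : ∀ j, j ∈ univ.filter (fun j : ZMod n => h (c - j) ≠ h j) ↔ h (c - j) ≠ h j := by
    intro j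
    simp
  generalize univ.filter (fun j : ZMod n => h (c - j) ≠ h j) = E at hmem ⊢
  have e1 : ∑ j, altSign hd j * h (c - j) = - ∑ j, altSign hd j * h j := by
    rw [← Equiv.sum_comp (Equiv.subLeft c) (fun j => altSign hd j * h (c - j))]
    simp only [Equiv.subLeft_apply, sub_sub_cancel, altSign_sub, hc]
    rw [← Finset.sum_neg_distrib]
    refine Finset.sum_congr rfl (fun j _ => by ring)
  have e2 : ∑ j, altSign hd j * (h j - h (c - j)) = 2 * ∑ j, altSign hd j * h j := by
    simp only [mul_sub, Finset.sum_sub_distrib]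
    rw [e1]
    ring
  have e3 : ∑ j ∈ E, altSign hd j * (h j - h (c - j))
      = ∑ j, altSign hd j * (h j - h (c - j)) := by
    apply Finset.sum_subset (Finset.subset_univ _)
    intro j _ hj
    have e0 : h (c - j) = h j := by
      by_contra h0
      exact hj ((hmem j).mpr h0)
    rw [e0]
    ring
  have hterm : ∀ j ∈ E, |altSign hd j * (h j - h (c - j))| ≤ 2 := by
    intro j _
    have ea : altSign hd j = 1 ∨ altSign hd j = -1 := sgn2_cases _
    rcases ea with ea | ea <;> rcases hh.1 j with eb | eb <;>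
      rcases hh.1 (c - j) with ec | ec <;> rw [ea, eb, ec] <;> norm_num
  have e4 : |∑ j ∈ E, altSign hd j * (h j - h (c - j))| ≤ 2 * (E.card : ℤ) := by
    calc |∑ j ∈ E, altSign hd j * (h j - h (c - j))|
        ≤ ∑ j ∈ E, |altSign hd j * (h j - h (c - j))| := Finset.abs_sum_le_sum_abs _ _
      _ ≤ ∑ j ∈ E, (2 : ℤ) := Finset.sum_le_sum hterm
      _ = 2 * (E.card : ℤ) := by rw [Finset.sum_const, nsmul_eq_mul, mul_comm]
  rw [e3, e2] at e4
  have e6 := altsum_sq hh hd
  have e7 := abs_le.mp e4
  have e8 : (n : ℤ) ≤ (E.card : ℤ) ^ 2 := by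
    nlinarith [mul_nonneg (by linarith [e7.1] : (0 : ℤ) ≤ (E.card : ℤ) + ∑ j, altSign hd j * h j)
      (by linarith [e7.2] : (0 : ℤ) ≤ (E.card : ℤ) - ∑ j, altSign hd j * h j)]
  exact_mod_cast e8

/-- If a weight `w` with values in `[-1, 1]` changes sign under the reflection `j ↦ c - j`, then
the weighted row sum is bounded by the number of positions where the reflection changes `h`. -/
theorem weight_defect (hh : IsCirculantHadamardRow n h) (c : ZMod n) (w : ZMod n → ℤ)
    (hw1 : ∀ j, -1 ≤ w j ∧ w j ≤ 1) (hw : ∀ j, w (c - j) = - w j) :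
    (∑ j, w j * h j) * (∑ j, w j * h j)
      ≤ ((univ.filter (fun j : ZMod n => h (c - j) ≠ h j)).card : ℤ) ^ 2 := by
  classical
  have hmem : ∀ j, j ∈ univ.filter (fun j : ZMod n => h (c - j) ≠ h j) ↔ h (c - j) ≠ h j := by
    intro j
    simp
  generalize univ.filter (fun j : ZMod n => h (c - j) ≠ h j) = E at hmem ⊢
  have e1 : ∑ j, w j * h (c - j) = - ∑ j, w j * h j := by
    rw [← Equiv.sum_comp (Equiv.subLeft c) (fun j => w j * h (c - j))]
    simp only [Equiv.subLeft_apply, sub_sub_cancel, hw]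
    rw [← Finset.sum_neg_distrib]
    refine Finset.sum_congr rfl (fun j _ => by ring)
  have e2 : ∑ j, w j * (h j - h (c - j)) = 2 * ∑ j, w j * h j := by
    simp only [mul_sub, Finset.sum_sub_distrib]
    rw [e1]
    ring
  have e3 : ∑ j ∈ E, w j * (h j - h (c - j)) = ∑ j, w j * (h j - h (c - j)) := by
    apply Finset.sum_subset (Finset.subset_univ _)
    intro j _ hj
    have e0 : h (c - j) = h j := by
      by_contra h0
      exact hj ((hmem j).mpr h0)
    rw [e0]
    ring
  have hterm : ∀ j ∈ E, |w j * (h j - h (c - j))| ≤ 2 := by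
    intro j _
    rw [abs_le]
    rcases hh.1 j with eb | eb <;> rcases hh.1 (c - j) with ec | ec <;> rw [eb, ec] <;>
      constructor <;> linarith [(hw1 j).1, (hw1 j).2]
  have e4 : |∑ j ∈ E, w j * (h j - h (c - j))| ≤ 2 * (E.card : ℤ) := by
    calc |∑ j ∈ E, w j * (h j - h (c - j))|
        ≤ ∑ j ∈ E, |w j * (h j - h (c - j))| := Finset.abs_sum_le_sum_abs _ _
      _ ≤ ∑ j ∈ E, (2 : ℤ) := Finset.sum_le_sum hterm
      _ = 2 * (E.card : ℤ) := by rw [Finset.sum_const, nsmul_eq_mul, mul_comm]
  rw [e3, e2] at e4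
  have e7 := abs_le.mp e4
  nlinarith [mul_nonneg (by linarith [e7.1] : (0 : ℤ) ≤ (E.card : ℤ) + ∑ j, w j * h j)
    (by linarith [e7.2] : (0 : ℤ) ≤ (E.card : ℤ) - ∑ j, w j * h j)]

/-- The real part of `i ^ x`. -/
def re4 (x : ZMod 4) : ℤ := if x = 0 then 1 else if x = 2 then -1 else 0

/-- The imaginary part of `i ^ x`. -/
def im4 (x : ZMod 4) : ℤ := if x = 1 then 1 else if x = 3 then -1 else 0

theorem re4_im4_mul : ∀ x y : ZMod 4, re4 x * re4 y + im4 x * im4 y = re4 (y - x) := by decide

theorem re4_zero : re4 0 = 1 := by decide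

theorem re4_reflect : ∀ x : ZMod 4, re4 (2 - x) = - re4 x := by decide

theorem im4_reflect : ∀ x : ZMod 4, im4 (0 - x) = - im4 x := by decide

theorem re4_bound : ∀ x : ZMod 4, -1 ≤ re4 x ∧ re4 x ≤ 1 := by decide

theorem im4_bound : ∀ x : ZMod 4, -1 ≤ im4 x ∧ im4 x ≤ 1 := by decide

/-- For `n ≠ 1` the order is divisible by four. -/
theorem four_dvd (hh : IsCirculantHadamardRow n h) (h1 : n ≠ 1) : 4 ∣ n := by
  obtain ⟨m, hm, -⟩ := order_even hh h1
  have hS := rowsum_sq hh
  have hn2 : (n : ℤ) = 2 * (m : ℤ) := by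
    rw [hm]
    push_cast
    ring
  rcases Int.even_or_odd (∑ j, h j) with ⟨k, hk⟩ | ⟨k, hk⟩
  · rw [hk] at hS
    have e : (n : ℤ) = 4 * (k * k) := by linear_combination -hS
    exact Int.natCast_dvd_natCast.mp ⟨k * k, by rw [e]; norm_num⟩
  · rw [hk, hn2] at hS
    exfalso
    have e : 2 * (2 * (k * k) + 2 * k) + 1 = 2 * (m : ℤ) := by linear_combination hS
    omega

/-- The squared modulus of the character sum of order four is the order. -/
theorem gauss4_sq (hh : IsCirculantHadamardRow n h) (h4 : 4 ∣ n) :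
    (∑ j, re4 (ZMod.castHom h4 (ZMod 4) j) * h j) * (∑ j, re4 (ZMod.castHom h4 (ZMod 4) j) * h j)
      + (∑ j, im4 (ZMod.castHom h4 (ZMod 4) j) * h j)
        * (∑ j, im4 (ZMod.castHom h4 (ZMod 4) j) * h j) = (n : ℤ) := by
  generalize ZMod.castHom h4 (ZMod 4) = ψ
  have e2 : ∀ j, ∑ t, re4 (ψ t) * (h j * h (j + t))
      = re4 (ψ j) * h j * (∑ k, re4 (ψ k) * h k)
        + im4 (ψ j) * h j * (∑ k, im4 (ψ k) * h k) := by
    intro j
    rw [Finset.mul_sum, Finset.mul_sum, ← Finset.sum_add_distrib,
      ← Equiv.sum_comp (Equiv.addLeft j)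
        (fun k => re4 (ψ j) * h j * (re4 (ψ k) * h k) + im4 (ψ j) * h j * (im4 (ψ k) * h k))]
    refine Finset.sum_congr rfl ?_
    intro t _
    simp only [Equiv.coe_addLeft]
    have e0 := re4_im4_mul (ψ j) (ψ (j + t))
    have e1 : ψ (j + t) - ψ j = ψ t := by rw [map_add, add_sub_cancel_left]
    rw [e1] at e0
    linear_combination (-(h j * h (j + t))) * e0
  have e1 : ∑ t, ∑ j, re4 (ψ t) * (h j * h (j + t)) = (n : ℤ) := by
    simp only [← Finset.mul_sum, autocorr hh]
    simp [re4_zero]
  rw [Finset.sum_comm] at e1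
  simp only [e2] at e1
  rw [Finset.sum_add_distrib, ← Finset.sum_mul, ← Finset.sum_mul] at e1
  exact e1

theorem cast4_of_val (h4 : 4 ∣ n) (c : ZMod n) (r : ℕ) (hr : c.val % 4 = r) :
    ZMod.castHom h4 (ZMod 4) c = (r : ZMod 4) := by
  rw [ZMod.castHom_apply, ← ZMod.natCast_val, ← ZMod.natCast_mod, hr]

/-- Reflections `j ↦ c - j` and `j ↦ c' - j` with `c ≡ 0` and `c' ≡ 2` modulo four change the
sign at `d` and `d'` positions with `n ≤ d ^ 2 + d' ^ 2`. -/
theorem reflect_defect_mod4 (hh : IsCirculantHadamardRow n h) (h4 : 4 ∣ n) (c c' : ZMod n)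
    (hc : c.val % 4 = 0) (hc' : c'.val % 4 = 2) :
    n ≤ (univ.filter (fun j : ZMod n => h (c - j) ≠ h j)).card ^ 2
      + (univ.filter (fun j : ZMod n => h (c' - j) ≠ h j)).card ^ 2 := by
  have hψc : ZMod.castHom h4 (ZMod 4) c = 0 := by
    rw [cast4_of_val h4 c 0 hc]
    rfl
  have hψc' : ZMod.castHom h4 (ZMod 4) c' = 2 := by
    rw [cast4_of_val h4 c' 2 hc']
    rfl
  have ea := weight_defect hh c' (fun j => re4 (ZMod.castHom h4 (ZMod 4) j))
    (fun j => re4_bound _) (fun j => by rw [map_sub, hψc']; exact re4_reflect _)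
  have eb := weight_defect hh c (fun j => im4 (ZMod.castHom h4 (ZMod 4) j))
    (fun j => im4_bound _) (fun j => by rw [map_sub, hψc]; exact im4_reflect _)
  have eg := gauss4_sq hh h4
  have e8 : (n : ℤ) ≤ ((univ.filter (fun j : ZMod n => h (c - j) ≠ h j)).card : ℤ) ^ 2
      + ((univ.filter (fun j : ZMod n => h (c' - j) ≠ h j)).card : ℤ) ^ 2 := by
    linarith
  exact_mod_cast e8

/-- A reflection `j ↦ c - j` preserves the sign at `√n` positions at least. -/
theorem reflect_agree (hh : IsCirculantHadamardRow n h) (c : ZMod n) :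
    n ≤ (univ.filter (fun j : ZMod n => h (c - j) = h j)).card ^ 2 := by
  classical
  have hmem : ∀ j, j ∈ univ.filter (fun j : ZMod n => h (c - j) = h j) ↔ h (c - j) = h j := by
    intro j
    simp
  generalize univ.filter (fun j : ZMod n => h (c - j) = h j) = A at hmem ⊢
  have e1 : ∑ j, h (c - j) = ∑ j, h j := Equiv.sum_comp (Equiv.subLeft c) h
  have e2 : ∑ j, (h j + h (c - j)) = 2 * ∑ j, h j := by
    rw [Finset.sum_add_distrib, e1]
    ring
  have e3 : ∑ j ∈ A, (h j + h (c - j)) = ∑ j, (h j + h (c - j)) := by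
    apply Finset.sum_subset (Finset.subset_univ _)
    intro j _ hj
    have e0 : h (c - j) ≠ h j := fun h0 => hj ((hmem j).mpr h0)
    rcases hh.1 j with eb | eb <;> rcases hh.1 (c - j) with ec | ec
    · exact absurd (ec.trans eb.symm) e0
    · rw [eb, ec]
      norm_num
    · rw [eb, ec]
      norm_num
    · exact absurd (ec.trans eb.symm) e0
  have hterm : ∀ j ∈ A, |h j + h (c - j)| ≤ 2 := by
    intro j _
    rw [abs_le]
    rcases hh.1 j with eb | eb <;> rcases hh.1 (c - j) with ec | ec <;> rw [eb, ec] <;>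
      constructor <;> norm_num
  have e4 : |∑ j ∈ A, (h j + h (c - j))| ≤ 2 * (A.card : ℤ) := by
    calc |∑ j ∈ A, (h j + h (c - j))|
        ≤ ∑ j ∈ A, |h j + h (c - j)| := Finset.abs_sum_le_sum_abs _ _
      _ ≤ ∑ j ∈ A, (2 : ℤ) := Finset.sum_le_sum hterm
      _ = 2 * (A.card : ℤ) := by rw [Finset.sum_const, nsmul_eq_mul, mul_comm]
  rw [e3, e2] at e4
  have e6 := rowsum_sq hh
  have e7 := abs_le.mp e4
  have e8 : (n : ℤ) ≤ (A.card : ℤ) ^ 2 := by
    nlinarith [mul_nonneg (by linarith [e7.1] : (0 : ℤ) ≤ (A.card : ℤ) + ∑ j, h j)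
      (by linarith [e7.2] : (0 : ℤ) ≤ (A.card : ℤ) - ∑ j, h j)]
  exact_mod_cast e8

end Vale.Agent.Lib.P033
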